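import Crest.Agent.X262.Emb11.Defs

/-!
# Row 262, road B, EMB (helper78): the local lifting statement
-/

set_option autoImplicit false

noncomputable section

namespace Crest.Agent.X262.Lft78

open Crest.Agent.X277 Crest.Agent.X277.BD
open Crest.Agent.X262.Vb Crest.Agent.X262.Emb

/-- the point reduces into the target -/
def RedOn {J : Type} [Fintype J] [DecidableEq J] {io : J → Type} [∀ j, Fintype (io j)]
    {A L : Type} [Field L] [Algebra ℂ L] (T : Tgt io A) (W : RZ ℂ L) (y : Pnt io L) : Prop :=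
  ∀ a, W.v (pv y (T.F a)) < (lw (T.k a) y).val W

/-- over an algebraically closed field a curve which reduces into `T` lifts to the graph -/
def LocStmt : Prop :=
  ∀ {J : Type} [Fintype J] [DecidableEq J] {io : Option J → Type} [∀ j, Fintype (io j)]
    [∀ j, DecidableEq (io j)] {A A' : Type} [Fintype A] [Fintype A'] {T : Tgt (bs io) A}
    {T' : Tgt io A'} {d : J → ℕ} (_ : Gr T T' d) {L I : Type} [Field L] [Algebra ℂ L]
    [IsAlgClosed L] (ξ : Dat (bs io) d I L) (W : RZ ℂ L), (∀ t, RedOn T W (ξ.pt t)) →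
    ∃ (n : ℕ) (ζ : Dat io (exd d n) I L), prD ζ = ξ ∧ ∀ t, RedOn T' W (ζ.pt t)

end Crest.Agent.X262.Lft78
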